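import Vale.Agent.P219.Slice.Main
import Mathlib.MeasureTheory.Function.JacobianOneDim
import Mathlib.MeasureTheory.Measure.Haar.InnerProductSpace

/-!
# P219: the sliced inequality for one conformal atom `p (⟪θ, x⟫) ^ (-2)`
-/

namespace Vale.Agent.P219.Mix

open MeasureTheory Set Filter Topology Metric intervalIntegral
open Vale.Agent.P219.Slice
open scoped RealInnerProductSpace

variable {m : ℕ}

/-- The projection to an interval, as a function on the line. -/
def clamp (a b t : ℝ) : ℝ := max a (min t b)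

lemma continuous_clamp (a b : ℝ) : Continuous (clamp a b) := by unfold clamp; fun_prop

lemma monotone_clamp (a b : ℝ) : Monotone (clamp a b) := fun _ _ h =>
  max_le_max le_rfl (min_le_min h le_rfl)

lemma clamp_mem {a b : ℝ} (h : a ≤ b) (t : ℝ) : clamp a b t ∈ Icc a b :=
  ⟨le_max_left _ _, max_le h (min_le_right _ _)⟩

lemma clamp_eq {a b t : ℝ} (ht : t ∈ Icc a b) : clamp a b t = t := by
  simp [clamp, ht.1, ht.2]

/-- A coordinate `X` with `X' = p ∘ X` on `[a,b]` and a convex `φ` equal to `-m log (p ∘ X)` there. -/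
lemma exists_coord (m : ℕ) {a b : ℝ} (hab : a ≤ b) {p p' : ℝ → ℝ}
    (hd : ∀ t ∈ Icc a b, HasDerivAt p (p' t) t) (hc : ContinuousOn p' (Icc a b))
    (hanti : AntitoneOn p' (Icc a b)) (hpos : ∀ t ∈ Icc a b, 0 < p t) :
    ∃ (X φ : ℝ → ℝ) (e : ℝ ≃ₜ ℝ), (∀ s, e s = X s) ∧
      (∀ s, HasDerivAt X (p (clamp a b (X s))) s) ∧ ConvexOn ℝ univ φ ∧
      ∀ s, X s ∈ Icc a b → φ s = -(m : ℝ) * Real.log (p (X s)) := by
  have hpc : Continuous fun t => p (clamp a b t) :=
    ContinuousOn.comp_continuous (s := Icc a b)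
      (fun t ht => (hd t ht).continuousAt.continuousWithinAt)
      (continuous_clamp a b) (clamp_mem hab)
  set P : ℝ → ℝ := fun t => p (clamp a b t) with hP
  have hP0 : ∀ t, 0 < P t := fun t => hpos _ (clamp_mem hab t)
  obtain ⟨M, hM⟩ : ∃ M, ∀ t, P t ≤ M := by
    obtain ⟨z, _, hz⟩ := isCompact_Icc.exists_isMaxOn (nonempty_Icc.2 hab)
      (fun t ht => (hd t ht).continuousAt.continuousWithinAt : ContinuousOn p (Icc a b))
    exact ⟨p z, fun t => hz (clamp_mem hab t)⟩
  have hM0 : 0 < M := (hP0 0).trans_le (hM 0)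
  have hinv : Continuous fun t => (P t)⁻¹ := hpc.inv₀ fun t => (hP0 t).ne'
  set S : ℝ → ℝ := fun x => ∫ t in a..x, (P t)⁻¹ with hS
  have hSd : ∀ x, HasDerivAt S (P x)⁻¹ x := fun x => hinv.integral_hasStrictDerivAt a x |>.hasDerivAt
  have hSc : Continuous S := continuous_iff_continuousAt.2 fun x => (hSd x).continuousAt
  have hSm : StrictMono S := strictMono_of_deriv_pos fun x => by
    rw [(hSd x).deriv]; exact inv_pos.2 (hP0 x)
  have hlow : Monotone fun x => S x - M⁻¹ * x := by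
    have hs : ∀ x, HasDerivAt (fun y => S y - M⁻¹ * y) ((P x)⁻¹ - M⁻¹) x := fun x => by
      simpa using (hSd x).fun_sub ((hasDerivAt_id x).const_mul M⁻¹)
    refine monotone_of_deriv_nonneg (fun x => (hs x).differentiableAt) fun x => ?_
    rw [(hs x).deriv, sub_nonneg]
    exact inv_anti₀ (hP0 x) (hM x)
  have htop : Tendsto S atTop atTop := by
    refine tendsto_atTop_mono' _ ?_
      (tendsto_atTop_add_const_left _ (S 0) (tendsto_id.const_mul_atTop (inv_pos.2 hM0)))
    filter_upwards [eventually_ge_atTop (0 : ℝ)] with x hx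
    have := hlow hx
    simp only [id] at this ⊢
    linarith
  have hbot : Tendsto S atBot atBot := by
    refine tendsto_atBot_mono' _ ?_
      (tendsto_atBot_add_const_left _ (S 0) (tendsto_id.const_mul_atBot (inv_pos.2 hM0)))
    filter_upwards [eventually_le_atBot (0 : ℝ)] with x hx
    have := hlow hx
    simp only [id] at this ⊢
    linarith
  let o : ℝ ≃o ℝ := StrictMono.orderIsoOfSurjective S hSm (hSc.surjective htop hbot)
  let e : ℝ ≃ₜ ℝ := o.toHomeomorph.symm
  have hX : ∀ s, S (e s) = s := fun s => o.apply_symm_apply s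
  have hXd : ∀ s, HasDerivAt e (P (e s)) s := fun s => by
    have := HasDerivAt.of_local_left_inverse e.continuous.continuousAt (hSd (e s))
      (inv_ne_zero (hP0 _).ne') (Eventually.of_forall hX)
    rwa [inv_inv] at this
  set g : ℝ → ℝ := fun s => -(m : ℝ) * p' (clamp a b (e s)) with hg
  have hgc : Continuous g := continuous_const.mul
    (hc.comp_continuous ((continuous_clamp a b).comp e.continuous) fun s => clamp_mem hab _)
  have hem : Monotone e := fun s s' h => hSm.le_iff_le.1 (by rwa [hX, hX])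
  have hgm : Monotone g := fun s s' h => mul_le_mul_of_nonpos_left
    (hanti (clamp_mem hab _) (clamp_mem hab _) (monotone_clamp a b (hem h)))
    (neg_nonpos.2 (Nat.cast_nonneg m))
  set φ : ℝ → ℝ := fun s => -(m : ℝ) * Real.log (p a) + ∫ σ in S a..s, g σ with hφ
  have hφd : ∀ s, HasDerivAt φ (g s) s := fun s =>
    (hgc.integral_hasStrictDerivAt (S a) s).hasDerivAt.const_add _
  refine ⟨e, φ, e, fun s => rfl, hXd, ?_, fun s hs => ?_⟩
  · refine Monotone.convexOn_univ_of_deriv (fun s => (hφd s).differentiableAt) ?_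
    rwa [funext fun s => (hφd s).deriv]
  · set ψ : ℝ → ℝ := fun s => -(m : ℝ) * Real.log (p (e s))
    have hmem : ∀ σ ∈ Icc (S a) (S b), e σ ∈ Icc a b := fun σ hσ => by
      refine ⟨hSm.le_iff_le.1 ?_, hSm.le_iff_le.1 ?_⟩ <;> rw [hX]
      exacts [hσ.1, hσ.2]
    have hψd : ∀ σ ∈ Icc (S a) (S b), HasDerivAt ψ (g σ) σ := fun σ hσ => by
      have he := hmem σ hσ
      have h := (((hd _ he).comp σ (hXd σ)).log (hpos _ he).ne').const_mul (-(m : ℝ))
      rw [show g σ = -(m : ℝ) * (p' (e σ) * P (e σ) / p (e σ)) by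
        simp only [g, P, clamp_eq he]; field_simp [(hpos _ he).ne']]
      exact h
    have hea : e (S a) = a := hSm.injective (hX _)
    have hsI : s ∈ Icc (S a) (S b) := by
      rw [← hX s]; exact ⟨hSm.monotone hs.1, hSm.monotone hs.2⟩
    refine eq_of_has_deriv_right_eq (f' := g) (fun σ _ => (hφd σ).hasDerivWithinAt)
      (fun σ hσ => (hψd σ (Ico_subset_Icc_self hσ)).hasDerivWithinAt)
      (fun σ _ => (hφd σ).continuousAt.continuousWithinAt)
      (fun σ hσ => (hψd σ hσ).continuousAt.continuousWithinAt) ?_ s hsI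
    simp [hφ, ψ, hea]

/-- An isometric chart with a given first axis. -/
lemma exists_chart (m : ℕ) {θ : E (m + 1)} (hθ : ‖θ‖ = 1) :
    ∃ T : (ℝ × E m) ≃L[ℝ] E (m + 1), MeasurePreserving T volume volume ∧
      (∀ x y, ⟪T x, T y⟫ = x.1 * y.1 + ⟪x.2, y.2⟫) ∧ ∀ x, ⟪θ, T x⟫ = x.1 := by
  have hf : Module.finrank ℝ (WithLp 2 (ℝ × E m)) = m + 1 := by
    rw [LinearEquiv.finrank_eq (WithLp.linearEquiv 2 ℝ (ℝ × E m))]
    simp [add_comm]
  let Φ0 : WithLp 2 (ℝ × E m) ≃ₗᵢ[ℝ] E (m + 1) :=
    ((stdOrthonormalBasis ℝ (WithLp 2 (ℝ × E m))).reindex (finCongr hf)).repr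
  let v := Φ0 (WithLp.toLp 2 ((1 : ℝ), (0 : E m)))
  have hv : ‖v‖ = ‖θ‖ := by
    simp only [v, LinearIsometryEquiv.norm_map, hθ]
    rw [← sq_eq_sq₀ (norm_nonneg _) zero_le_one, WithLp.prod_norm_sq_eq_of_L2]
    simp
  let Φ := Φ0.trans (Submodule.reflection (ℝ ∙ (v - θ))ᗮ)
  have hΦ : Φ (WithLp.toLp 2 ((1 : ℝ), (0 : E m))) = θ := Submodule.reflection_sub hv
  refine ⟨(WithLp.prodContinuousLinearEquiv 2 ℝ ℝ (E m)).symm.trans Φ.toContinuousLinearEquiv,
    Φ.measurePreserving.comp (WithLp.volume_preserving_toLp ℝ (E m)), fun x y => ?_, fun x => ?_⟩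
  · show ⟪Φ (WithLp.toLp 2 x), Φ (WithLp.toLp 2 y)⟫ = _
    rw [LinearIsometryEquiv.inner_map_map, WithLp.prod_inner_apply]
    simp [mul_comm]
  · show ⟪θ, Φ (WithLp.toLp 2 x)⟫ = _
    conv_lhs => rw [← hΦ, LinearIsometryEquiv.inner_map_map, WithLp.prod_inner_apply]
    simp

/-- The perimeter density of one atom. -/
noncomputable def atomQ (m : ℕ) (p : ℝ → ℝ) (θ x : E (m + 1)) : ℝ := (p ⟪θ, x⟫ ^ m)⁻¹

/-- A functional bounds the norm of its two parts. -/
lemma split_norm_le {T : (ℝ × E m) ≃L[ℝ] E (m + 1)}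
    (hT : ∀ x y, ⟪T x, T y⟫ = x.1 * y.1 + ⟪x.2, y.2⟫) (D : E (m + 1) →L[ℝ] ℝ) :
    D (T (1, 0)) ^ 2 + ‖(D.comp (T : (ℝ × E m) →L[ℝ] E (m + 1))).comp
        (ContinuousLinearMap.inr ℝ ℝ (E m))‖ ^ 2 ≤ ‖D‖ ^ 2 := by
  set v := (InnerProductSpace.toDual ℝ (E (m + 1))).symm D
  set z := T.symm v
  have hDx : ∀ x, D (T x) = z.1 * x.1 + ⟪z.2, x.2⟫ := fun x => by
    rw [← hT, T.apply_symm_apply]
    exact InnerProductSpace.toDual_symm_apply.symm
  have hD : ‖D‖ = ‖T z‖ := by simp [z, v]
  have hinr : ‖(D.comp (T : (ℝ × E m) →L[ℝ] E (m + 1))).comp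
      (ContinuousLinearMap.inr ℝ ℝ (E m))‖ ≤ ‖z.2‖ :=
    ContinuousLinearMap.opNorm_le_bound _ (norm_nonneg _) fun y => by
      show ‖D (T (0, y))‖ ≤ _
      rw [hDx]
      simpa using abs_real_inner_le_norm z.2 y
  have h2 := pow_le_pow_left₀ (norm_nonneg _) hinr 2
  rw [hD, ← real_inner_self_eq_norm_sq (T z), hT, hDx]
  simp only [mul_one, inner_zero_right, add_zero, real_inner_self_eq_norm_sq]
  nlinarith

/-- The inequality for one atom, with the clamped profile. -/
lemma atom_clamped (hm : 0 < m) {θ : E (m + 1)} (hθ : ‖θ‖ = 1) {a b : ℝ} (hab : a ≤ b)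
    {p p' : ℝ → ℝ} (hd : ∀ t ∈ Icc a b, HasDerivAt p (p' t) t) (hc : ContinuousOn p' (Icc a b))
    (hanti : AntitoneOn p' (Icc a b)) (hpos : ∀ t ∈ Icc a b, 0 < p t) {w : E (m + 1) → ℝ}
    (hw : ContDiff ℝ 1 w) (hcs : HasCompactSupport w)
    (hsupp : ∀ x ∈ tsupport w, ⟪θ, x⟫ ∈ Icc a b) (h0 : ∀ x, 0 ≤ w x) :
    (m + 1) * kap (m + 1)
        * (∫ x, (atomQ m (p ∘ clamp a b) θ x * w x) ^ (((m : ℝ) + 1) / m)) ^ ((m : ℝ) / (m + 1))
      ≤ ∫ x, atomQ m (p ∘ clamp a b) θ x * ‖fderiv ℝ w x‖ := by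
  obtain ⟨X, φ, e, heX, hXd, hφc, hφ⟩ := exists_coord m hab hd hc hanti hpos
  obtain ⟨T, hTm, hTi, hTθ⟩ := exists_chart m hθ
  have hm0 : (0 : ℝ) < m := by exact_mod_cast hm
  set r : ℝ := ((m : ℝ) + 1) / m with hr
  have hr0 : 0 < r := by positivity
  set P : ℝ → ℝ := p ∘ clamp a b
  have hP0 : ∀ t, 0 < P t := fun t => hpos _ (clamp_mem hab t)
  have hPc : Continuous P :=
    ContinuousOn.comp_continuous (s := Icc a b)
      (fun t ht => (hd t ht).continuousAt.continuousWithinAt)
      (continuous_clamp a b) (clamp_mem hab)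
  have hXc : Continuous X := continuous_iff_continuousAt.2 fun s => (hXd s).continuousAt
  set L : ℝ → E m →L[ℝ] E m := fun s => Real.exp (-(φ s / m)) • ContinuousLinearMap.id ℝ (E m)
  have hdet : ∀ s, (L s).det = Real.exp (-φ s) := fun s => by
    simp only [L, ContinuousLinearMap.det]
    rw [ContinuousLinearMap.toLinearMap_smul, ContinuousLinearMap.coe_id, LinearMap.det_smul,
      LinearMap.det_id, mul_one, finrank_euclideanSpace_fin, ← Real.exp_nat_mul]
    congr 1
    field_simp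
  have hdens : ∀ s, dens L s = Real.exp (φ s) := fun s => by
    rw [dens, hdet, Real.exp_neg, abs_inv, abs_of_pos (Real.exp_pos _), inv_inv]
  have hφcont : Continuous φ := continuousOn_univ.1 (hφc.continuousOn isOpen_univ)
  have hLc : Continuous L := (Real.continuous_exp.comp (hφcont.div_const _).neg).smul continuous_const
  have hLconv : ConvexOn ℝ univ fun s => Real.log (dens L s) := by
    simpa only [hdens, Real.log_exp] using hφc
  set W : ℝ × E m → ℝ := fun z => w (T (X z.1, z.2)) with hW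
  have hX1 : ContDiff ℝ 1 X := by
    refine contDiff_one_iff_deriv.2 ⟨fun s => (hXd s).differentiableAt, ?_⟩
    rw [funext fun s => (hXd s).deriv]
    exact hPc.comp hXc
  have hW1 : ContDiff ℝ 1 W :=
    hw.comp (T.contDiff.comp ((hX1.comp contDiff_fst).prodMk contDiff_snd))
  have hWc : HasCompactSupport W :=
    hcs.comp_homeomorph ((e.prodCongr (Homeomorph.refl (E m))).trans T.toHomeomorph) |> fun h => by
      convert h using 1
      funext z
      simp [hW, heX, Prod.map]
  have main := sharp_sliced (L := L) hm (fun s => by rw [hdet]; exact (Real.exp_pos _).ne') hLc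
    hLconv hW1 hWc (fun z => h0 _)
  -- the values on the support
  have hval : ∀ z : ℝ × E m, T (X z.1, z.2) ∈ tsupport w →
      P (X z.1) = p (X z.1) ∧ Real.exp (-(φ z.1 / m)) = P (X z.1) ∧
        dens L z.1 = (P (X z.1) ^ m)⁻¹ := by
    intro z hz
    have hmem : X z.1 ∈ Icc a b := by simpa [hTθ] using hsupp _ hz
    have e1 : P (X z.1) = p (X z.1) := by simp [P, clamp_eq hmem]
    refine ⟨e1, ?_, ?_⟩
    · rw [hφ _ hmem, e1, neg_mul, neg_div, neg_neg, mul_div_cancel_left₀ _ hm0.ne',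
        Real.exp_log (hpos _ hmem)]
    · rw [hdens, hφ _ hmem, e1, neg_mul, Real.exp_neg, ← Real.log_pow,
        Real.exp_log (pow_pos (hpos _ hmem) m)]
  have hfd : ∀ z, fderiv ℝ W z = (fderiv ℝ w (T (X z.1, z.2))).comp
      ((T : (ℝ × E m) →L[ℝ] E (m + 1)).comp
        ((P (X z.1) • ContinuousLinearMap.fst ℝ ℝ (E m)).prod (ContinuousLinearMap.snd ℝ ℝ (E m)))) :=
    fun z => ((hw.differentiable one_ne_zero _).hasFDerivAt.comp z
      (T.hasFDerivAt.comp z (((hXd z.1).comp_hasFDerivAt z hasFDerivAt_fst).prodMk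
        hasFDerivAt_snd))).fderiv
  have hg : ∀ z : ℝ × E m, gnorm L W z ≤ P (X z.1) * ‖fderiv ℝ w (T (X z.1, z.2))‖ := by
    intro z
    set D := fderiv ℝ w (T (X z.1, z.2)) with hD
    by_cases hz : T (X z.1, z.2) ∈ tsupport w
    · obtain ⟨_, he, _⟩ := hval z hz
      refine Real.sqrt_le_iff.2 ⟨mul_nonneg (hP0 _).le (norm_nonneg _), ?_⟩
      have e1 : fderiv ℝ W z (1, 0) = P (X z.1) * D (T (1, 0)) := by
        rw [hfd]
        show D (T (P (X z.1) * 1, 0)) = _
        rw [show ((P (X z.1) * 1, 0) : ℝ × E m) = P (X z.1) • ((1 : ℝ), (0 : E m)) by simp,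
          map_smul, map_smul, smul_eq_mul]
      have e2 : ((fderiv ℝ W z).comp (ContinuousLinearMap.inr ℝ ℝ (E m))).comp (L z.1)
          = P (X z.1) • (D.comp (T : (ℝ × E m) →L[ℝ] E (m + 1))).comp
            (ContinuousLinearMap.inr ℝ ℝ (E m)) := by
        ext y
        simp [hfd, L, he, hD]
      rw [e1, e2, norm_smul, Real.norm_of_nonneg (hP0 _).le, mul_pow, mul_pow, ← mul_add, mul_pow]
      exact mul_le_mul_of_nonneg_left (split_norm_le hTi D) (sq_nonneg _)
    · have hD0 : D = 0 := fderiv_of_notMem_tsupport ℝ hz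
      simp [gnorm, hfd, ← hD, hD0]
  -- change of variables
  have cov : ∀ F : E (m + 1) → ℝ, Continuous F → HasCompactSupport F →
      ∫ z : ℝ × E m, P (X z.1) * F (T (X z.1, z.2)) = ∫ x, F x := by
    intro F hF hFc
    rw [← hTm.integral_comp T.toHomeomorph.measurableEmbedding F]
    have hc1 : HasCompactSupport fun z : ℝ × E m => F (T (X z.1, z.2)) := by
      convert hFc.comp_homeomorph ((e.prodCongr (Homeomorph.refl (E m))).trans T.toHomeomorph)
        using 1
      funext z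
      simp [heX, Prod.map]
    have i1 : Integrable fun z : ℝ × E m => P (X z.1) * F (T (X z.1, z.2)) :=
      ((hPc.comp (hXc.comp continuous_fst)).mul (hF.comp (T.continuous.comp
        ((hXc.comp continuous_fst).prodMk continuous_snd)))).integrable_of_hasCompactSupport
          hc1.mul_left
    have i2 : Integrable fun z : ℝ × E m => F (T z) :=
      (hF.comp T.continuous).integrable_of_hasCompactSupport
        (hFc.comp_homeomorph T.toHomeomorph)
    rw [Measure.volume_eq_prod] at i1 i2 ⊢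
    rw [integral_prod_symm _ i1, integral_prod_symm _ i2]
    refine integral_congr_ae (ae_of_all _ fun y => ?_)
    show ∫ s, P (X s) * F (T (X s, y)) = ∫ t, F (T (t, y))
    have h := integral_image_eq_integral_abs_deriv_smul (s := univ) MeasurableSet.univ
      (fun s _ => (hXd s).hasDerivWithinAt)
      (fun s _ s' _ h => e.injective (by rw [heX, heX]; exact h)) (fun t => F (T (t, y)))
    rw [image_univ, show range X = univ from
      (range_eq_univ.2 fun t => ⟨e.symm t, by rw [← heX, e.apply_symm_apply]⟩),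
      setIntegral_univ, setIntegral_univ] at h
    rw [h]
    refine integral_congr_ae (ae_of_all _ fun s => ?_)
    simp [abs_of_pos (hpos _ (clamp_mem hab _)), P]
  set Q := atomQ m P θ with hQ
  have hQc : Continuous Q := ((hPc.comp (continuous_const.inner continuous_id)).pow m).inv₀
    fun x => (pow_pos (hP0 _) m).ne'
  have hQ0 : ∀ x, 0 < Q x := fun x => inv_pos.2 (pow_pos (hP0 _) m)
  have hQT : ∀ z : ℝ × E m, Q (T (X z.1, z.2)) = (P (X z.1) ^ m)⁻¹ := fun z => by
    simp [hQ, atomQ, hTθ]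
  have hFc : HasCompactSupport fun x => (Q x * w x) ^ r :=
    (hcs.mul_left).comp_left (g := fun t : ℝ => t ^ r) (Real.zero_rpow hr0.ne')
  have eL : ∫ z : ℝ × E m, dens L z.1 * W z ^ r = ∫ x, (Q x * w x) ^ r := by
    rw [← cov (fun x => (Q x * w x) ^ r)
      ((hQc.mul hw.continuous).rpow_const fun _ => Or.inr hr0.le) hFc]
    refine integral_congr_ae (ae_of_all _ fun z => ?_)
    by_cases hz : T (X z.1, z.2) ∈ tsupport w
    · obtain ⟨_, _, hdz⟩ := hval z hz
      simp only [hQT, hdz, hW]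
      have hP := hP0 (X z.1)
      rw [Real.mul_rpow (by positivity) (h0 _), ← mul_assoc]
      congr 1
      rw [Real.inv_rpow (by positivity), ← Real.rpow_natCast, ← Real.rpow_mul hP.le,
        show (m : ℝ) * r = (m : ℝ) + 1 by rw [hr]; field_simp, Real.rpow_add hP, Real.rpow_one]
      field_simp
    · simp [hW, image_eq_zero_of_notMem_tsupport hz, Real.zero_rpow hr0.ne']
  have hgc : Continuous fun x => Q x * ‖fderiv ℝ w x‖ :=
    hQc.mul (hw.continuous_fderiv one_ne_zero).norm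
  have hgs : HasCompactSupport fun x => Q x * ‖fderiv ℝ w x‖ := ((hcs.fderiv ℝ).norm).mul_left
  have eR : ∫ z : ℝ × E m, dens L z.1 * gnorm L W z ≤ ∫ x, Q x * ‖fderiv ℝ w x‖ := by
    rw [← cov _ hgc hgs]
    refine integral_mono_of_nonneg
      (ae_of_all _ fun z => mul_nonneg (dens_pos (fun s => by rw [hdet]; exact (Real.exp_pos _).ne')
        _).le (Real.sqrt_nonneg _)) ?_ (ae_of_all _ fun z => ?_)
    · refine ((hPc.comp (hXc.comp continuous_fst)).mul (hgc.comp (T.continuous.comp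
        ((hXc.comp continuous_fst).prodMk continuous_snd)))).integrable_of_hasCompactSupport ?_
      have hh := hgs.comp_homeomorph ((e.prodCongr (Homeomorph.refl (E m))).trans T.toHomeomorph)
      refine HasCompactSupport.mul_left ?_
      convert hh using 1 <;> first | rfl | (funext z; simp [heX, Prod.map])
    · refine (mul_le_mul_of_nonneg_left (hg z) ?_).trans (le_of_eq ?_)
      · rw [hdens]; exact (Real.exp_pos _).le
      · by_cases hz : T (X z.1, z.2) ∈ tsupport w
        · obtain ⟨_, _, hdz⟩ := hval z hz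
          simp only [hQT, hdz]; ring
        · simp [fderiv_of_notMem_tsupport ℝ hz]
  rw [eL] at main
  exact main.trans eR

end Vale.Agent.P219.Mix
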