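import Vale.Agent.P219.Mix.Atom

/-!
# P219: mixtures of atoms, sharp inequality and curvature
-/

namespace Vale.Agent.P219.Mix

open MeasureTheory Set Filter Topology Metric
open Vale.Agent.P219.Slice
open scoped RealInnerProductSpace ENNReal

variable {m k : ℕ}

/-- The inequality for one atom. -/
lemma atom (hm : 0 < m) {θ : E (m + 1)} (hθ : ‖θ‖ = 1) {I : Set ℝ} (hI : IsOpen I) {p : ℝ → ℝ}
    (hp : ContDiffOn ℝ 2 p I) (hconc : ConcaveOn ℝ I p) (hpos : ∀ t ∈ I, 0 < p t)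
    {w : E (m + 1) → ℝ} (hw : ContDiff ℝ 1 w) (hcs : HasCompactSupport w)
    (hsupp : ∀ x ∈ tsupport w, ⟪θ, x⟫ ∈ I) (h0 : ∀ x, 0 ≤ w x) :
    ∃ q : E (m + 1) → ℝ, Continuous q ∧ (∀ x, 0 ≤ q x) ∧
      (∀ x ∈ tsupport w, q x = atomQ m p θ x) ∧
      (m + 1) * kap (m + 1) * (∫ x, (q x * w x) ^ (((m : ℝ) + 1) / m)) ^ ((m : ℝ) / (m + 1))
        ≤ ∫ x, q x * ‖fderiv ℝ w x‖ := by
  have hr0 : (0 : ℝ) < ((m : ℝ) + 1) / m := by positivity
  rcases eq_empty_or_nonempty (tsupport w) with he | hne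
  · have hw0 : ∀ x, w x = 0 := fun x => image_eq_zero_of_notMem_tsupport (by simp [he])
    have ha0 : (0 : ℝ) < (m : ℝ) / (m + 1) := by positivity
    refine ⟨fun _ => 0, continuous_const, fun _ => le_rfl, by simp [he], ?_⟩
    simp [Real.zero_rpow hr0.ne', Real.zero_rpow ha0.ne']
  set K := (fun x => ⟪θ, x⟫) '' tsupport w
  have hK : IsCompact K := hcs.isCompact.image (continuous_const.inner continuous_id)
  have hKn : K.Nonempty := hne.image _
  have hKI : K ⊆ I := by rintro _ ⟨x, hx, rfl⟩; exact hsupp x hx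
  set a := sInf K
  set b := sSup K
  have hab : a ≤ b := csInf_le_csSup hKn hK.bddBelow hK.bddAbove
  have hsub : Icc a b ⊆ I :=
    hconc.1.ordConnected.out (hKI (hK.sInf_mem hKn)) (hKI (hK.sSup_mem hKn))
  have hmem : ∀ x ∈ tsupport w, ⟪θ, x⟫ ∈ Icc a b := fun x hx =>
    ⟨csInf_le hK.bddBelow (mem_image_of_mem _ hx), le_csSup hK.bddAbove (mem_image_of_mem _ hx)⟩
  have hd : ∀ t ∈ I, DifferentiableAt ℝ p t := fun t ht =>
    (hp.differentiableOn (by norm_num)).differentiableAt (hI.mem_nhds ht)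
  have h := atom_clamped hm hθ hab (p := p) (p' := deriv p) (fun t ht => (hd t (hsub ht)).hasDerivAt)
    ((hp.continuousOn_deriv_of_isOpen hI (by norm_num)).mono hsub)
    ((hconc.antitoneOn_deriv hd).mono hsub) (fun t ht => hpos t (hsub ht)) hw hcs hmem h0
  refine ⟨atomQ m (p ∘ clamp a b) θ, ?_, fun x => ?_, fun x hx => ?_, h⟩
  · refine ((Continuous.pow ?_ m).inv₀ fun x => (pow_pos (hpos _ (hsub (clamp_mem hab _))) m).ne')
    exact ContinuousOn.comp_continuous (s := Icc a b) (hp.continuousOn.mono hsub)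
      ((continuous_clamp a b).comp (continuous_const.inner continuous_id)) fun x => clamp_mem hab _
  · exact (inv_pos.2 (pow_pos (hpos _ (hsub (clamp_mem hab _))) m)).le
  · simp [atomQ, clamp_eq (hmem x hx)]

/-- Minkowski's inequality for finite sums of continuous compactly supported functions. -/
lemma minkowski {α : Type*} [TopologicalSpace α] [MeasurableSpace α] [BorelSpace α] {μ : Measure α}
    [IsFiniteMeasureOnCompacts μ] {r : ℝ} (hr : 1 ≤ r) {ι : Type*} (s : Finset ι) (f : ι → α → ℝ)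
    (hc : ∀ i, Continuous (f i)) (hs : ∀ i, HasCompactSupport (f i)) (h0 : ∀ i x, 0 ≤ f i x) :
    (∫ x, (∑ i ∈ s, f i x) ^ r ∂μ) ^ (1 / r) ≤ ∑ i ∈ s, (∫ x, f i x ^ r ∂μ) ^ (1 / r) := by
  classical
  have hr0 : 0 < r := by linarith
  have key : ∀ g : α → ℝ, Continuous g → HasCompactSupport g → (∀ x, 0 ≤ g x) →
      (∫⁻ x, ENNReal.ofReal (g x) ^ r ∂μ) ^ (1 / r)
        = ENNReal.ofReal ((∫ x, g x ^ r ∂μ) ^ (1 / r)) := by
    intro g hg hgs hg0
    have hi : Integrable (fun x => g x ^ r) μ :=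
      (hg.rpow_const fun _ => Or.inr hr0.le).integrable_of_hasCompactSupport
        (hgs.comp_left (g := fun t : ℝ => t ^ r) (Real.zero_rpow hr0.ne'))
    rw [← ENNReal.ofReal_rpow_of_nonneg (integral_nonneg fun x => Real.rpow_nonneg (hg0 x) _)
      (by positivity), ofReal_integral_eq_lintegral_ofReal hi
      (ae_of_all _ fun x => Real.rpow_nonneg (hg0 x) _)]
    simp only [ENNReal.ofReal_rpow_of_nonneg (hg0 _) hr0.le]
  induction s using Finset.induction with
  | empty => simp [Real.zero_rpow hr0.ne', Real.zero_rpow (inv_ne_zero hr0.ne')]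
  | insert j t hj ih =>
    have hS : Continuous fun x => ∑ i ∈ t, f i x := continuous_finsetSum _ fun i _ => hc i
    have hSc : HasCompactSupport fun x => ∑ i ∈ t, f i x := by
      clear ih hj hS
      induction t using Finset.induction with
      | empty => exact HasCompactSupport.zero
      | insert l u hl ihu => simp only [Finset.sum_insert hl]; exact (hs l).add ihu
    have hS0 : ∀ x, 0 ≤ ∑ i ∈ t, f i x := fun x => Finset.sum_nonneg fun i _ => h0 i x
    simp only [Finset.sum_insert hj]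
    refine le_trans ?_ (add_le_add le_rfl ih)
    rw [← ENNReal.ofReal_le_ofReal_iff (add_nonneg
        (Real.rpow_nonneg (integral_nonneg fun x => Real.rpow_nonneg (h0 j x) _) _)
        (Real.rpow_nonneg (integral_nonneg fun x => Real.rpow_nonneg (hS0 x) _) _)),
      ← key (fun x => f j x + ∑ i ∈ t, f i x) ((hc j).add hS) ((hs j).add hSc)
        fun x => add_nonneg (h0 j x) (hS0 x),
      ENNReal.ofReal_add (Real.rpow_nonneg (integral_nonneg fun x => Real.rpow_nonneg (h0 j x) _) _)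
        (Real.rpow_nonneg (integral_nonneg fun x => Real.rpow_nonneg (hS0 x) _) _),
      ← key _ (hc j) (hs j) (h0 j), ← key _ hS hSc hS0]
    simp only [ENNReal.ofReal_add (h0 j _) (hS0 _)]
    exact ENNReal.lintegral_Lp_add_le ((hc j).measurable.ennreal_ofReal.aemeasurable)
      (hS.measurable.ennreal_ofReal.aemeasurable) hr

/-- The perimeter density of a mixture. -/
noncomputable def mixQ (m : ℕ) (p : Fin k → ℝ → ℝ) (θ : Fin k → E (m + 1)) (x : E (m + 1)) : ℝ :=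
  ∑ i, atomQ m (p i) (θ i) x

/-- The sharp inequality for mixtures. -/
theorem mix_sobolev (hm : 0 < m) {θ : Fin k → E (m + 1)} (hθ : ∀ i, ‖θ i‖ = 1) {I : Fin k → Set ℝ}
    (hI : ∀ i, IsOpen (I i)) {p : Fin k → ℝ → ℝ} (hp : ∀ i, ContDiffOn ℝ 2 (p i) (I i))
    (hconc : ∀ i, ConcaveOn ℝ (I i) (p i)) (hpos : ∀ i, ∀ t ∈ I i, 0 < p i t)
    {w : E (m + 1) → ℝ} (hw : ContDiff ℝ 1 w) (hcs : HasCompactSupport w)
    (hsupp : ∀ x ∈ tsupport w, ∀ i, ⟪θ i, x⟫ ∈ I i) (h0 : ∀ x, 0 ≤ w x) :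
    (m + 1) * kap (m + 1)
        * (∫ x, (mixQ m p θ x * w x) ^ (((m : ℝ) + 1) / m)) ^ ((m : ℝ) / (m + 1))
      ≤ ∫ x, mixQ m p θ x * ‖fderiv ℝ w x‖ := by
  choose q hqc hq0 hqe hq using fun i =>
    atom hm (hθ i) (hI i) (hp i) (hconc i) (hpos i) hw hcs (fun x hx => hsupp x hx i) h0
  have e1 : ∀ x, mixQ m p θ x * w x = ∑ i, q i x * w x := fun x => by
    by_cases hx : x ∈ tsupport w
    · simp [mixQ, Finset.sum_mul, hqe _ x hx]
    · simp [image_eq_zero_of_notMem_tsupport hx]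
  have e2 : ∀ x, mixQ m p θ x * ‖fderiv ℝ w x‖ = ∑ i, q i x * ‖fderiv ℝ w x‖ := fun x => by
    by_cases hx : x ∈ tsupport w
    · simp [mixQ, Finset.sum_mul, hqe _ x hx]
    · simp [fderiv_of_notMem_tsupport ℝ hx]
  simp only [e1, e2]
  set r : ℝ := ((m : ℝ) + 1) / m with hr
  have hm0 : (0 : ℝ) < m := by exact_mod_cast hm
  have hr1 : 1 ≤ r := by rw [hr, le_div_iff₀ hm0]; linarith
  have h := minkowski (μ := volume) hr1 Finset.univ (fun i x => q i x * w x)
    (fun i => (hqc i).mul hw.continuous) (fun i => hcs.mul_left)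
    (fun i x => mul_nonneg (hq0 i x) (h0 x))
  rw [hr, one_div_div] at h
  have hint : ∀ i, Integrable fun x => q i x * ‖fderiv ℝ w x‖ := fun i => ((hqc i).mul
    (hw.continuous_fderiv one_ne_zero).norm).integrable_of_hasCompactSupport
      ((hcs.fderiv ℝ).norm).mul_left
  rw [integral_finsetSum _ fun i _ => hint i]
  refine (mul_le_mul_of_nonneg_left h ?_).trans ?_
  · have := kap_pos (m + 1); positivity
  · rw [Finset.mul_sum]
    exact Finset.sum_le_sum fun i _ => hq i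

/-- The conformal factor of a mixture. -/
noncomputable def mixU (m : ℕ) (p : Fin k → ℝ → ℝ) (θ : Fin k → E (m + 1)) (x : E (m + 1)) : ℝ :=
  Real.log (mixQ m p θ x) / m

/-- The common domain of the atoms. -/
def mixDom (θ : Fin k → E (m + 1)) (I : Fin k → Set ℝ) : Set (E (m + 1)) :=
  {x | ∀ i, ⟪θ i, x⟫ ∈ I i}

lemma isOpen_mixDom (θ : Fin k → E (m + 1)) {I : Fin k → Set ℝ} (hI : ∀ i, IsOpen (I i)) :
    IsOpen (mixDom θ I) := by
  rw [show mixDom θ I = ⋂ i, (fun x => ⟪θ i, x⟫) ⁻¹' I i by ext x; simp [mixDom]]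
  exact isOpen_iInter_of_finite fun i => (hI i).preimage (continuous_const.inner continuous_id)

/-- The first derivative of an atom. -/
noncomputable def atomD (m : ℕ) (p : ℝ → ℝ) (θ a y : E (m + 1)) : ℝ :=
  -(m : ℝ) * ⟪θ, a⟫ * deriv p ⟪θ, y⟫ / p ⟪θ, y⟫ * atomQ m p θ y

section Curvature

variable {θ : Fin k → E (m + 1)} {I : Fin k → Set ℝ} {p : Fin k → ℝ → ℝ}
  (hI : ∀ i, IsOpen (I i)) (hp : ∀ i, ContDiffOn ℝ 2 (p i) (I i))
  (hpos : ∀ i, ∀ t ∈ I i, 0 < p i t)

include hpos in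
lemma mixQ_pos [NeZero k] {x : E (m + 1)} (hx : x ∈ mixDom θ I) : 0 < mixQ m p θ x :=
  Finset.sum_pos (fun i _ => inv_pos.2 (pow_pos (hpos i _ (hx i)) m))
    ⟨⟨0, Nat.pos_of_ne_zero (NeZero.ne k)⟩, Finset.mem_univ _⟩

include hp hpos in
lemma contDiffOn_mixU [NeZero k] : ContDiffOn ℝ 2 (mixU m p θ) (mixDom θ I) := by
  have h : ContDiffOn ℝ 2 (mixQ m p θ) (mixDom θ I) := ContDiffOn.sum fun i _ =>
    (((hp i).comp (contDiff_const.inner ℝ contDiff_id).contDiffOn
      fun x (hx : x ∈ mixDom θ I) => hx i).pow m).inv fun x hx => (pow_pos (hpos i _ (hx i)) m).ne'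
  exact (h.log fun x hx => (mixQ_pos hpos hx).ne').div_const _

include hI hp hpos in
lemma hasDerivAt_atomQ (i : Fin k) (y a : E (m + 1)) (hy : ⟪θ i, y⟫ ∈ I i) :
    HasDerivAt (fun r : ℝ => atomQ m (p i) (θ i) (y + r • a)) (atomD m (p i) (θ i) a y) 0 := by
  have hl : HasDerivAt (fun r : ℝ => ⟪θ i, y⟫ + r * ⟪θ i, a⟫) ⟪θ i, a⟫ 0 := by
    simpa using ((hasDerivAt_id (0 : ℝ)).mul_const ⟪θ i, a⟫).const_add ⟪θ i, y⟫
  have hd : HasDerivAt (p i) (deriv (p i) ⟪θ i, y⟫) (⟪θ i, y⟫ + 0 * ⟪θ i, a⟫) := by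
    rw [zero_mul, add_zero]
    exact (((hp i).differentiableOn (by norm_num)).differentiableAt
      ((hI i).mem_nhds hy)).hasDerivAt
  have h := ((hd.comp 0 hl).pow m).inv (by
    simpa using pow_ne_zero m (hpos i _ hy).ne')
  refine h.congr_of_eventuallyEq (.of_forall fun r => ?_) |>.congr_deriv ?_
  · simp [atomQ, inner_add_right, inner_smul_right]
  · simp only [atomD, atomQ, Function.comp_apply, zero_mul, add_zero, Pi.pow_apply]
    have := hpos i _ hy
    rcases Nat.eq_zero_or_pos m with rfl | hm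
    · simp
    · obtain ⟨l, rfl⟩ : ∃ l, m = l + 1 := ⟨m - 1, by omega⟩
      simp only [Nat.add_sub_cancel]
      field_simp
      ring

include hI hp hpos in
lemma fderiv_mixU [NeZero k] {y : E (m + 1)} (hy : y ∈ mixDom θ I) (a : E (m + 1)) :
    fderiv ℝ (mixU m p θ) y a
      = (∑ i, atomD m (p i) (θ i) a y) / mixQ m p θ y / m := by
  have hd : DifferentiableAt ℝ (mixU m p θ) y :=
    ((contDiffOn_mixU hp hpos).differentiableOn (by norm_num)).differentiableAt
      ((isOpen_mixDom θ hI).mem_nhds hy)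
  have h1 := hd.hasFDerivAt.hasLineDerivAt a
  have h2 : HasDerivAt (fun r : ℝ => mixU m p θ (y + r • a))
      ((∑ i, atomD m (p i) (θ i) a y) / mixQ m p θ y / m) 0 := by
    have h := ((HasDerivAt.fun_sum fun i (_ : i ∈ Finset.univ) =>
      hasDerivAt_atomQ hI hp hpos i y a (hy i)).log (by simpa [mixQ] using (mixQ_pos (m := m) hpos hy).ne')).div_const
        (m : ℝ)
    simpa [mixU, mixQ] using h
  exact h1.unique h2

include hI hp hpos in
lemma hasDerivAt_atomD (i : Fin k) (y a : E (m + 1)) (hy : ⟪θ i, y⟫ ∈ I i) :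
    HasDerivAt (fun r : ℝ => atomD m (p i) (θ i) a (y + r • a))
      (((m : ℝ) * (m + 1) * (⟪θ i, a⟫ * deriv (p i) ⟪θ i, y⟫ / p i ⟪θ i, y⟫) ^ 2
        - m * ⟪θ i, a⟫ ^ 2 * deriv (deriv (p i)) ⟪θ i, y⟫ / p i ⟪θ i, y⟫)
          * atomQ m (p i) (θ i) y) 0 := by
  have hl : HasDerivAt (fun r : ℝ => ⟪θ i, y⟫ + r * ⟪θ i, a⟫) ⟪θ i, a⟫ 0 := by
    simpa using ((hasDerivAt_id (0 : ℝ)).mul_const ⟪θ i, a⟫).const_add ⟪θ i, y⟫
  have hd : HasDerivAt (p i) (deriv (p i) ⟪θ i, y⟫) (⟪θ i, y⟫ + 0 * ⟪θ i, a⟫) := by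
    rw [zero_mul, add_zero]
    exact (((hp i).differentiableOn (by norm_num)).differentiableAt
      ((hI i).mem_nhds hy)).hasDerivAt
  have hd2 : HasDerivAt (deriv (p i)) (deriv (deriv (p i)) ⟪θ i, y⟫)
      (⟪θ i, y⟫ + 0 * ⟪θ i, a⟫) := by
    rw [zero_mul, add_zero]
    exact (((hp i).deriv_of_isOpen (hI i) (m := 1) (by norm_num)).differentiableOn
      (by norm_num)).differentiableAt ((hI i).mem_nhds hy) |>.hasDerivAt
  have hpy : p i (⟪θ i, y⟫ + 0 * ⟪θ i, a⟫) ≠ 0 := by simpa using (hpos i _ hy).ne'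
  have h := (((hd2.comp 0 hl).div (hd.comp 0 hl) hpy).const_mul (-(m : ℝ) * ⟪θ i, a⟫)).mul
    (hasDerivAt_atomQ hI hp hpos i y a hy)
  refine h.congr_of_eventuallyEq (.of_forall fun r => ?_) |>.congr_deriv ?_
  · simp [atomD, inner_add_right, inner_smul_right]; ring
  · simp only [atomD, Pi.div_apply, Function.comp_apply, zero_mul, add_zero, zero_smul]
    have := hpos i _ hy
    field_simp
    ring

include hI hp hpos in
/-- The squared derivative is at most the second derivative. -/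
theorem sq_le_hess [NeZero k] (hm : 0 < m) (hconc : ∀ i, ConcaveOn ℝ (I i) (p i))
    {x : E (m + 1)} (hx : x ∈ mixDom θ I) (a : E (m + 1)) :
    fderiv ℝ (mixU m p θ) x a ^ 2 ≤ fderiv ℝ (fderiv ℝ (mixU m p θ)) x a a := by
  have hU := isOpen_mixDom θ hI
  have hd2 : DifferentiableAt ℝ (fderiv ℝ (mixU m p θ)) x :=
    (((contDiffOn_mixU hp hpos).fderiv_of_isOpen hU (m := 1) (by norm_num)).differentiableOn
      (by norm_num)).differentiableAt (hU.mem_nhds hx)
  have h1 : HasDerivAt (fun r : ℝ => fderiv ℝ (mixU m p θ) (x + r • a) a)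
      (fderiv ℝ (fderiv ℝ (mixU m p θ)) x a a) 0 := by
    simpa using (hd2.hasFDerivAt.hasLineDerivAt a).clm_apply (hasDerivAt_const (0 : ℝ) a)
  have hev : ∀ᶠ r in 𝓝 (0 : ℝ), fderiv ℝ (mixU m p θ) (x + r • a) a
      = (∑ i, atomD m (p i) (θ i) a (x + r • a)) / mixQ m p θ (x + r • a) / m := by
    have : ∀ᶠ r in 𝓝 (0 : ℝ), x + r • a ∈ mixDom θ I :=
      (by fun_prop : Continuous fun r : ℝ => x + r • a).continuousAt.preimage_mem_nhds
        (by simpa using hU.mem_nhds hx)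
    exact this.mono fun r hr => fderiv_mixU hI hp hpos hr a
  set z := fun i => ⟪θ i, a⟫ * deriv (p i) ⟪θ i, x⟫ / p i ⟪θ i, x⟫
  set c := fun i => atomQ m (p i) (θ i) x
  have hQ : 0 < ∑ i, c i := mixQ_pos hpos hx
  have hc : ∀ i, 0 < c i := fun i => inv_pos.2 (pow_pos (hpos i _ (hx i)) m)
  have h2 := ((HasDerivAt.fun_sum fun i (_ : i ∈ Finset.univ) =>
    hasDerivAt_atomD hI hp hpos i x a (hx i)).div
      (HasDerivAt.fun_sum fun i (_ : i ∈ Finset.univ) => hasDerivAt_atomQ hI hp hpos i x a (hx i))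
      (by simpa using hQ.ne')).div_const (m : ℝ)
  have key := h1.unique (h2.congr_of_eventuallyEq (hev.mono fun r hr => by simpa [mixQ] using hr))
  rw [key, fderiv_mixU hI hp hpos hx a]
  simp only [zero_smul, add_zero]
  have eD : ∀ i, atomD m (p i) (θ i) a x = -(m : ℝ) * z i * c i := fun i => by
    simp only [atomD, z, c]; ring
  have e1 : (∑ i, atomD m (p i) (θ i) a x) = -(m : ℝ) * ∑ i, z i * c i := by
    simp only [eD, Finset.mul_sum, mul_assoc]
  have e2 : ((m : ℝ) * (m + 1)) * ∑ i, z i ^ 2 * c i ≤ ∑ i,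
      ((m : ℝ) * (m + 1) * z i ^ 2
        - m * ⟪θ i, a⟫ ^ 2 * deriv (deriv (p i)) ⟪θ i, x⟫ / p i ⟪θ i, x⟫) * c i := by
    rw [Finset.mul_sum]
    refine Finset.sum_le_sum fun i _ => ?_
    have hneg : deriv (deriv (p i)) ⟪θ i, x⟫ ≤ 0 := by
      have hanti := (hconc i).antitoneOn_deriv fun t ht =>
        ((hp i).differentiableOn (by norm_num)).differentiableAt ((hI i).mem_nhds ht)
      have h := hanti.derivWithin_nonpos (x := ⟪θ i, x⟫)
      rwa [derivWithin_of_isOpen (hI i) (hx i)] at h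
    have hle : (m : ℝ) * ⟪θ i, a⟫ ^ 2 * deriv (deriv (p i)) ⟪θ i, x⟫ / p i ⟪θ i, x⟫ ≤ 0 :=
      div_nonpos_of_nonpos_of_nonneg (mul_nonpos_of_nonneg_of_nonpos (by positivity) hneg)
        (hpos i _ (hx i)).le
    nlinarith [hc i]
  have hcs : (∑ i, z i * c i) ^ 2 ≤ (∑ i, z i ^ 2 * c i) * ∑ i, c i := by
    refine le_trans (le_of_eq ?_) (Finset.sum_mul_sq_le_sq_mul_sq Finset.univ
      (fun i => z i * √(c i)) (fun i => √(c i)) |>.trans (le_of_eq ?_))
    · simp only [mul_assoc, Real.mul_self_sqrt (hc _).le]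
    · simp only [mul_pow, Real.sq_sqrt (hc _).le]
  have hm0 : (0 : ℝ) < m := by exact_mod_cast hm
  simp only [mixQ] at *
  change (_ / (∑ i, c i) / (m : ℝ)) ^ 2 ≤ _
  rw [e1]
  set N := ∑ i, z i * c i
  set Q := ∑ i, c i
  set Z := ∑ i, z i ^ 2 * c i
  rw [show -(m : ℝ) * N / Q / m = -N / Q by field_simp, neg_div, neg_sq, div_pow,
    le_div_iff₀ hm0, div_mul_eq_mul_div, div_le_div_iff_of_pos_right (by positivity)]
  have h3 := mul_le_mul_of_nonneg_right e2 hQ.le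
  have h4 := mul_le_mul_of_nonneg_left hcs (by positivity : (0 : ℝ) ≤ (m : ℝ) * (m + 1))
  nlinarith [h3, h4]

end Curvature

end Vale.Agent.P219.Mix
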